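/-
R78 / S0103 (Kadison-Kastler): frozen definitions for helper43's type-free proof
(row-78 posts #5918, #5919, #6019).
-/
import Mathlib

set_option autoImplicit false
set_option linter.unusedSectionVars false
set_option linter.dupNamespace false

noncomputable section

namespace Crest.Agent.R078.KK

open scoped InnerProductSpace ComplexConjugate
open ContinuousLinearMap (adjoint)

universe u

/-! ### near inclusions and finite amplifications -/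

section Near

variable {H : Type u} [NormedAddCommGroup H] [InnerProductSpace ℂ H] [CompleteSpace H]

/-- unit-ball near inclusion `ball A ⊆_δ ball B` -/
def NearIn (δ : ℝ) (A B : Set (H →L[ℂ] H)) : Prop :=
  ∀ x ∈ A, ‖x‖ ≤ 1 → ∃ y ∈ B, ‖y‖ ≤ 1 ∧ ‖x - y‖ ≤ δ

/-- two-sided closeness of the unit balls -/
def Close (δ : ℝ) (M N : VonNeumannAlgebra H) : Prop :=
  NearIn δ (M : Set (H →L[ℂ] H)) N ∧ NearIn δ (N : Set (H →L[ℂ] H)) M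

/-- A finite amplification `𝓗 ≅ H ⊗ ℂ^J`, given by isometries `u j : H → 𝓗`, `j : J`. -/
structure FinAmp (H 𝓗 : Type u) [NormedAddCommGroup H] [InnerProductSpace ℂ H] [CompleteSpace H]
    [NormedAddCommGroup 𝓗] [InnerProductSpace ℂ 𝓗] [CompleteSpace 𝓗]
    (J : Type) [Fintype J] [DecidableEq J] where
  u : J → (H →L[ℂ] 𝓗)
  isom : ∀ i j, adjoint (u i) ∘L u j = if i = j then ContinuousLinearMap.id ℂ H else 0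
  total : ∑ j, u j ∘L adjoint (u j) = ContinuousLinearMap.id ℂ 𝓗

variable {𝓗 : Type u} [NormedAddCommGroup 𝓗] [InnerProductSpace ℂ 𝓗] [CompleteSpace 𝓗]

/-- matrix entry of `x : B(𝓗)` -/
def FinAmp.ent {J : Type} [Fintype J] [DecidableEq J] (a : FinAmp H 𝓗 J) (x : 𝓗 →L[ℂ] 𝓗)
    (i j : J) : H →L[ℂ] H := adjoint (a.u i) ∘L x ∘L a.u j

/-- the operators on `𝓗` all of whose entries are in `P` (that is `P ⊗ M_J`) -/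
def FinAmp.mat {J : Type} [Fintype J] [DecidableEq J] (a : FinAmp H 𝓗 J)
    (P : Set (H →L[ℂ] H)) : Set (𝓗 →L[ℂ] 𝓗) := {x | ∀ i j, a.ent x i j ∈ P}

/-- `P ⊗ M_{J₁} ⊗ 1` on `𝓗 ≅ H ⊗ ℂ^{J₁} ⊗ ℂ^{J₂}` -/
def FinAmp.setL {J₁ J₂ : Type} [Fintype J₁] [DecidableEq J₁] [Fintype J₂] [DecidableEq J₂]
    (a : FinAmp H 𝓗 (J₁ × J₂)) (P : Set (H →L[ℂ] H)) : Set (𝓗 →L[ℂ] 𝓗) :=
  {x | (∀ i k s t, s ≠ t → a.ent x (i, s) (k, t) = 0) ∧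
    (∀ i k s t, a.ent x (i, s) (k, s) = a.ent x (i, t) (k, t)) ∧
    ∀ i k s, a.ent x (i, s) (k, s) ∈ P}

/-- `P ⊗ 1 ⊗ M_{J₂}` on `𝓗 ≅ H ⊗ ℂ^{J₁} ⊗ ℂ^{J₂}` -/
def FinAmp.setR {J₁ J₂ : Type} [Fintype J₁] [DecidableEq J₁] [Fintype J₂] [DecidableEq J₂]
    (a : FinAmp H 𝓗 (J₁ × J₂)) (P : Set (H →L[ℂ] H)) : Set (𝓗 →L[ℂ] 𝓗) :=
  {x | (∀ i k s t, i ≠ k → a.ent x (i, s) (k, t) = 0) ∧
    (∀ i k s t, a.ent x (i, s) (i, t) = a.ent x (k, s) (k, t)) ∧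
    ∀ i s t, a.ent x (i, s) (i, t) ∈ P}

end Near

section Good

variable {H : Type u} [NormedAddCommGroup H] [InnerProductSpace ℂ H] [CompleteSpace H]

/-- complete closeness of `M, N` and of their commutants (all finite amplifications) -/
structure CC (δ : ℝ) (M N : VonNeumannAlgebra H) : Prop where
  MN : ∀ (𝓗 : Type u) [NormedAddCommGroup 𝓗] [InnerProductSpace ℂ 𝓗] [CompleteSpace 𝓗]
    (J : Type) [Fintype J] [DecidableEq J] (a : FinAmp H 𝓗 J), NearIn δ (a.mat M) (a.mat N)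
  NM : ∀ (𝓗 : Type u) [NormedAddCommGroup 𝓗] [InnerProductSpace ℂ 𝓗] [CompleteSpace 𝓗]
    (J : Type) [Fintype J] [DecidableEq J] (a : FinAmp H 𝓗 J), NearIn δ (a.mat N) (a.mat M)
  MN' : ∀ (𝓗 : Type u) [NormedAddCommGroup 𝓗] [InnerProductSpace ℂ 𝓗] [CompleteSpace 𝓗]
    (J : Type) [Fintype J] [DecidableEq J] (a : FinAmp H 𝓗 J),
    NearIn δ (a.mat M.commutant) (a.mat N.commutant)
  NM' : ∀ (𝓗 : Type u) [NormedAddCommGroup 𝓗] [InnerProductSpace ℂ 𝓗] [CompleteSpace 𝓗]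
    (J : Type) [Fintype J] [DecidableEq J] (a : FinAmp H 𝓗 J),
    NearIn δ (a.mat N.commutant) (a.mat M.commutant)

/-- stability: a sequence of isometries with orthogonal ranges in `M' ∩ N'` -/
def St (M N : VonNeumannAlgebra H) : Prop :=
  ∃ w : ℕ → (H →L[ℂ] H), (∀ k, w k ∈ M.commutant ∧ w k ∈ N.commutant) ∧
    ∀ k l, star (w k) * w l = if k = l then 1 else 0

/-- the class of pairs we work with -/
structure Good (δ : ℝ) (M N : VonNeumannAlgebra H) : Prop where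
  cc : CC δ M N
  st : St M N

/-! ### relations -/

/-- A relation of class `R`: functionals `⟨· α a, β a⟩` which on `N` are `⟨· ξ, η a⟩`, with
`∑ μ_a ⟨n ξ, η_a⟩ Y_a = 0` for all `n ∈ N`. -/
structure Rel (M N : VonNeumannAlgebra H) (R : ℝ) (A : Type) [Fintype A] where
  ξ : H
  ξ_norm : ‖ξ‖ ≤ 1
  μ : A → ℝ
  μ_nonneg : ∀ a, 0 ≤ μ a
  μ_sum : ∑ a, μ a = 1
  Y : A → (H →L[ℂ] H)
  Y_mem : ∀ a, Y a ∈ M
  Y_norm : ∀ a, ‖Y a‖ ≤ 1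
  α : A → H
  β : A → H
  η : A → H
  α_norm : ∀ a, ‖α a‖ ≤ 1
  β_norm : ∀ a, ‖β a‖ ≤ 1
  η_norm : ∀ a, ‖η a‖ ≤ R
  rep : ∀ a, ∀ n ∈ N, ⟪β a, n (α a)⟫_ℂ = ⟪η a, n ξ⟫_ℂ
  rel : ∀ n ∈ N, ∑ a, ((μ a : ℂ) * ⟪η a, n ξ⟫_ℂ) • Y a = 0

/-- the value of a relation -/
def Rel.val {M N : VonNeumannAlgebra H} {R : ℝ} {A : Type} [Fintype A] (r : Rel M N R A) : ℂ :=
  ∑ a, (r.μ a : ℂ) * ⟪r.β a, r.Y a (r.α a)⟫_ℂ

end Good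

/-- `Λ_R ≤ L` -/
def Bd (δ R L : ℝ) : Prop :=
  ∀ (H : Type u) [NormedAddCommGroup H] [InnerProductSpace ℂ H] [CompleteSpace H]
    (M N : VonNeumannAlgebra H), Good δ M N → ∀ (A : Type) [Fintype A] (r : Rel M N R A),
    ‖r.val‖ ≤ L

section Adapted

variable {H : Type u} [NormedAddCommGroup H] [InnerProductSpace ℂ H] [CompleteSpace H]

/-- An adapted relation (N1): `α a = a_a ξ`, `β a = b_a ξ` with `a_a, b_a ∈ M' ∩ N'` and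
`∑ μ_a ‖a_a h‖² ≤ 3 ‖h‖²`; moreover `η_a ∈ closure (N ξ)` and the relation holds against all
vectors. -/
structure ARel (M N : VonNeumannAlgebra H) (R : ℝ) (A : Type) [Fintype A] where
  ξ : H
  ξ_norm : ‖ξ‖ ≤ 1
  μ : A → ℝ
  μ_nonneg : ∀ i, 0 ≤ μ i
  μ_sum : ∑ i, μ i = 1
  Y : A → (H →L[ℂ] H)
  Y_mem : ∀ i, Y i ∈ M
  Y_norm : ∀ i, ‖Y i‖ ≤ 1
  a : A → (H →L[ℂ] H)
  b : A → (H →L[ℂ] H)
  a_mem : ∀ i, a i ∈ M.commutant ∧ a i ∈ N.commutant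
  b_mem : ∀ i, b i ∈ M.commutant ∧ b i ∈ N.commutant
  a_norm : ∀ i, ‖a i ξ‖ ≤ 1
  b_norm : ∀ i, ‖b i ξ‖ ≤ 1
  cov : ∀ h : H, ∑ i, μ i * ‖a i h‖ ^ 2 ≤ 3 * ‖h‖ ^ 2
  η : A → H
  η_norm : ∀ i, ‖η i‖ ≤ R
  η_mem : ∀ i, η i ∈ closure {z : H | ∃ n ∈ N, z = n ξ}
  rep : ∀ i, ∀ n ∈ N, ⟪b i ξ, n (a i ξ)⟫_ℂ = ⟪η i, n ξ⟫_ℂ
  rel : ∀ h : H, ∑ i, ((μ i : ℂ) * ⟪η i, h⟫_ℂ) • Y i = 0

/-- the value of an adapted relation -/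
def ARel.val {M N : VonNeumannAlgebra H} {R : ℝ} {A : Type} [Fintype A] (r : ARel M N R A) : ℂ :=
  ∑ i, (r.μ i : ℂ) * ⟪r.b i r.ξ, r.Y i (r.a i r.ξ)⟫_ℂ

end Adapted

/-! ### words -/

section Words

variable {X : Type*} [Monoid X] {d : ℕ}

/-- `f 0 * ⋯ * f (n-1)` -/
def pre (f : Fin d → X) (n : ℕ) : X := ((List.ofFn f).take n).prod

/-- `f n * ⋯ * f (d-1)` -/
def suf (f : Fin d → X) (n : ℕ) : X := ((List.ofFn f).drop n).prod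

/-- product weight of a word -/
def wt {𝒞 : Type} (ν : 𝒞 → ℝ) (ω : Fin d → 𝒞) : ℝ := ∏ j, ν (ω j)

end Words

/-! ### the walk interface -/

section Walk

variable {H : Type u} [NormedAddCommGroup H] [InnerProductSpace ℂ H] [CompleteSpace H]

/-- Interface between the tensor model (fresh ancillas) and the analysis of the walk.
`Loc j` = operators acting trivially on the `j`-th ancilla. `k 0 j, k 1 j` are the operators on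
the second leg of the `j`-th ancilla with `k s j ζ = ξ ⊗ (v_s ⊗ g)_j ⊗ ζ₀^rest` (`k 0` is `k1`
resp. `v_0 f_1`, `k 1` is `k` resp. `v_0 f_2` of the post). -/
structure Walk (M N : VonNeumannAlgebra H) (δ R κ K Kθ ε₁ : ℝ) (d : ℕ)
    (𝒞 : Type) [Fintype 𝒞] [DecidableEq 𝒞] where
  ν : 𝒞 → ℝ
  ν_nonneg : ∀ c, 0 ≤ ν c
  ν_sum : ∑ c, ν c = 1
  Loc : Fin d → StarSubalgebra ℂ (H →L[ℂ] H)
  near_loc : ∀ j, NearIn δ {x | x ∈ M ∧ x ∈ Loc j} {y | y ∈ N ∧ y ∈ Loc j}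
  near_loc' : ∀ j, NearIn δ {x | x ∈ M.commutant ∧ x ∈ Loc j} {y | y ∈ N.commutant ∧ y ∈ Loc j}
  T : Fin d → 𝒞 → (H →L[ℂ] H)
  S : Fin d → 𝒞 → (H →L[ℂ] H)
  T_mem : ∀ j c, T j c ∈ M
  S_mem : ∀ j c, S j c ∈ M.commutant
  T_unitary : ∀ j c, T j c ∈ unitary (H →L[ℂ] H)
  S_unitary : ∀ j c, S j c ∈ unitary (H →L[ℂ] H)
  T_loc : ∀ i j c, i ≠ j → T i c ∈ Loc j
  S_loc : ∀ i j c, i ≠ j → S i c ∈ Loc j
  ζ : H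
  ζ_norm : ‖ζ‖ ≤ 1
  k : Fin 2 → Fin d → (H →L[ℂ] H)
  k_mem : ∀ s j, k s j ∈ M.commutant ∧ k s j ∈ N.commutant
  k_norm : ∀ s j, ‖k s j‖ ≤ Kθ
  k_comm : ∀ s j, ∀ x ∈ Loc j, x * k s j = k s j * x
  k_iso : ∀ s j, ∀ x ∈ Loc j, ‖x (k s j ζ)‖ = ‖x ζ‖
  p : H →L[ℂ] H
  p_star : star p = p
  p_idem : p * p = p
  p_mem : p ∈ N.commutant
  p_loc : ∀ j, p ∈ Loc j
  p_ζ : p ζ = ζ
  p_closure : ∀ h, p h = h → h ∈ closure {z : H | ∃ n ∈ N, z = n ζ}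
  a : 𝒞 → (H →L[ℂ] H)
  a_mem : ∀ c, a c ∈ M.commutant ∧ a c ∈ N.commutant
  a_norm : ∀ c, ‖a c‖ ≤ K
  cov : ∀ h : H, ∑ c, ν c * ‖a c h‖ ^ 2 ≤ 3 * ‖h‖ ^ 2
  ak_norm : ∀ j c, ‖a c (k 1 j ζ)‖ ≤ 1
  β : Fin d → 𝒞 → H
  β_norm : ∀ j c, ‖β j c‖ ≤ 1
  η : Fin d → 𝒞 → H
  η_norm : ∀ j c, ‖η j c‖ ≤ R
  η_p : ∀ j c, p (η j c) = η j c
  rep : ∀ j c, ∀ n ∈ N, ⟪β j c, n (a c (k 1 j ζ))⟫_ℂ = ⟪η j c, n (k 1 j ζ)⟫_ℂ
  relT : ∀ j (h : H), ∑ c, ((ν c : ℂ) * ⟪η j c, h⟫_ℂ) • T j c = 0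
  relS : ∀ j, ∑ c, (ν c : ℂ) • S j c (adjoint (k 1 j) (η j c)) = 0
  b : 𝒞 → (H →L[ℂ] H)
  b_mem : ∀ c, b c ∈ M.commutant
  b_norm : ∀ c, ‖b c‖ ≤ K
  β_eq : ∀ j c, β j c = b c (k 0 j ζ)
  close : ∀ j c, ‖T j c (S j c ζ) - ζ‖ ≤ ε₁
  drift_pre : ∀ n, ∑ ω : Fin d → 𝒞,
    wt ν ω * ‖pre (fun j => T j (ω j) * S j (ω j)) n ζ - ζ‖ ^ 2 ≤ d * ε₁ ^ 2
  drift_suf : ∀ n, ∑ ω : Fin d → 𝒞,
    wt ν ω * ‖suf (fun j => T j (ω j) * S j (ω j)) n ζ - ζ‖ ^ 2 ≤ d * ε₁ ^ 2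
  v : ℂ
  value : ∀ j, ‖∑ c, (ν c : ℂ) * ⟪β j c, T j c (a c (k 1 j ζ))⟫_ℂ - v‖ ≤ κ

end Walk

/-! ### letters -/

section Letters

variable {H : Type u} [NormedAddCommGroup H] [InnerProductSpace ℂ H] [CompleteSpace H]

/-- the four phases -/
def ph : Fin 4 → ℂ := ![1, Complex.I, -1, -Complex.I]

/-- Output of the letter lemma (one ancilla `ℂ^I ⊗ ℂ^I`, reference vector
`ζ₀ = ∑ √om_i e_i ⊗ e_i`, vectors `v 0 = v₀ f₁`, `v 1 = v₀ f₂` on the first leg).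
`T c` acts on the first leg, `S c` on the second. -/
structure Letter (M : VonNeumannAlgebra H) {A : Type} [Fintype A] (ξ : H) (μ : A → ℝ)
    (Y a b : A → (H →L[ℂ] H)) (η : A → H) (κ Kθ ε₁ : ℝ) (I : Type) [Fintype I]
    [DecidableEq I] where
  om : I → ℝ
  om_pos : ∀ i, 0 < om i
  om_sum : ∑ i, om i = 1
  v : Fin 2 → I → ℂ
  v_norm : ∀ s, ∑ i, ‖v s i‖ ^ 2 = 1
  v_om : ∀ s, ∑ i, ‖v s i‖ ^ 2 / om i ≤ Kθ ^ 2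
  T : A × Fin 4 → Matrix I I (H →L[ℂ] H)
  S : A × Fin 4 → Matrix I I (H →L[ℂ] H)
  T_mem : ∀ c i j, T c i j ∈ M
  S_mem : ∀ c i j, S c i j ∈ M.commutant
  T_unitary : ∀ c, T c ∈ unitary (Matrix I I (H →L[ℂ] H))
  S_unitary : ∀ c, S c ∈ unitary (Matrix I I (H →L[ℂ] H))
  T_symm : ∀ x θ, T (x, θ + 2) = star (T (x, θ))
  S_symm : ∀ x θ, S (x, θ + 2) = star (S (x, θ))
  close : ∀ c, ∑ i, ∑ t, ‖∑ k, ((Real.sqrt (om k) : ℝ) : ℂ) • T c i k (S c t k ξ) -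
    (if i = t then ((Real.sqrt (om i) : ℝ) : ℂ) • ξ else 0)‖ ^ 2 ≤ ε₁ ^ 2
  relT : ∀ (h : H) i j,
    ∑ c : A × Fin 4, (((μ c.1 / 4 : ℝ) : ℂ) * conj (ph c.2) * ⟪η c.1, h⟫_ℂ) • T c i j = 0
  relS : ∀ t s, ∑ c : A × Fin 4, (((μ c.1 / 4 : ℝ) : ℂ) * ph c.2) • S c t s (η c.1) = 0
  value : ‖∑ c : A × Fin 4, ((μ c.1 / 4 : ℝ) : ℂ) * conj (ph c.2) *
      (∑ i, ∑ k, conj (v 0 i) * v 1 k * ⟪b c.1 ξ, T c i k (a c.1 ξ)⟫_ℂ) -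
      (1 / 2 : ℂ) * ∑ i, (μ i : ℂ) * ⟪b i ξ, Y i (a i ξ)⟫_ℂ‖ ≤ κ

end Letters

end Crest.Agent.R078.KK
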