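/-
R78 / S0103: targets (one `Prop` per block) for helper43's type-free proof.
-/
import Crest.Agent.R078.KK.Defs

set_option autoImplicit false
set_option linter.unusedSectionVars false

noncomputable section

namespace Crest.Agent.R078.KK

open scoped InnerProductSpace ComplexConjugate
open ContinuousLinearMap (adjoint)

universe u

/-! ### elementary blocks -/

/-- (PJ) projecting `η` onto `closure (N ξ)` -/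
def PJ : Prop :=
  ∀ (H : Type u) [NormedAddCommGroup H] [InnerProductSpace ℂ H] [CompleteSpace H]
    (M N : VonNeumannAlgebra H) (R : ℝ) (A : Type) [Fintype A] (r : Rel M N R A),
    ∃ η' : A → H, (∀ a, ‖η' a‖ ≤ ‖r.η a‖) ∧ (∀ a, η' a ∈ closure {z : H | ∃ n ∈ N, z = n r.ξ}) ∧
      (∀ a, ∀ n ∈ N, ⟪η' a, n r.ξ⟫_ℂ = ⟪r.η a, n r.ξ⟫_ℂ) ∧
      ∀ h : H, ∑ a, ((r.μ a : ℂ) * ⟪η' a, h⟫_ℂ) • r.Y a = 0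

/-- (F1) -/
def F1 : Prop := ∀ δ R : ℝ, 0 ≤ δ → 0 ≤ R → Bd.{u} δ R ((1 + R) * δ)

/-- (F2) -/
def F2 : Prop := ∀ δ R L c : ℝ, 1 ≤ c → Bd.{u} δ R L → Bd.{u} δ (c * R) (c * L)

/-- (AD) adapted vector -/
def AD : Prop :=
  ∀ (H : Type u) [NormedAddCommGroup H] [InnerProductSpace ℂ H] [CompleteSpace H]
    (M N : VonNeumannAlgebra H), St M N → ∀ (R : ℝ), 0 ≤ R → ∀ (A : Type) [Fintype A]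
    (r : Rel M N R A), ∃ ρ : ARel M N (Real.sqrt 3 * R) A, ρ.val = r.val

/-- (EXT) norm-preserving extension of vector functionals on `N` -/
def EXT : Prop :=
  ∀ (H : Type u) [NormedAddCommGroup H] [InnerProductSpace ℂ H] [CompleteSpace H]
    (N : VonNeumannAlgebra H) (w : ℕ → (H →L[ℂ] H)), (∀ k, w k ∈ N.commutant) →
    (∀ k l, star (w k) * w l = if k = l then 1 else 0) →
    ∀ (α β : H) (c : ℝ), 0 ≤ c → (∀ n ∈ N, ‖⟪β, n α⟫_ℂ‖ ≤ c * ‖n‖) → ∀ ε : ℝ, 0 < ε →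
    ∃ α' β' : H, ‖α'‖ ^ 2 ≤ c + ε ∧ ‖β'‖ ^ 2 ≤ c + ε ∧ ∀ n ∈ N, ⟪β', n α'⟫_ℂ = ⟪β, n α⟫_ℂ

/-- existence of a linear map `M → N` at distance `≤ L` from the identity -/
def HasLift {H : Type u} [NormedAddCommGroup H] [InnerProductSpace ℂ H] [CompleteSpace H]
    (L : ℝ) (M N : VonNeumannAlgebra H) : Prop :=
  ∃ Θ : M.toStarSubalgebra →ₗ[ℂ] (H →L[ℂ] H), (∀ x, Θ x ∈ N) ∧
    ∀ x, ‖Θ x - (x : H →L[ℂ] H)‖ ≤ L * ‖(x : H →L[ℂ] H)‖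

/-- (HB) Hahn-Banach -/
def HB : Prop :=
  ∀ δ L : ℝ, 0 ≤ L → (∀ R : ℝ, 1 ≤ R → Bd.{u} δ R L) →
    ∀ (H : Type u) [NormedAddCommGroup H] [InnerProductSpace ℂ H] [CompleteSpace H]
      (M N : VonNeumannAlgebra H), Good δ M N → HasLift L M N

/-- (LINLIFT) the statement used by helper914's end step -/
def LinLift : Prop :=
  ∃ C δ₀ : ℝ, 0 < C ∧ 0 < δ₀ ∧
    ∀ (H : Type u) [NormedAddCommGroup H] [InnerProductSpace ℂ H] [CompleteSpace H]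
      (M N : VonNeumannAlgebra H) (δ : ℝ), 0 ≤ δ → δ ≤ δ₀ → Close δ M N → HasLift (C * δ) M N

/-- (BASE) from R124 (S0165 + distance to the commutant) -/
def BASE : Prop :=
  ∃ C : ℝ, 1 ≤ C ∧ ∀ (H : Type u) [NormedAddCommGroup H] [InnerProductSpace ℂ H] [CompleteSpace H]
      (M N : VonNeumannAlgebra H) (δ : ℝ), 0 ≤ δ → Close δ M N → CC (C * δ) M N

/-- (STAB) infinite amplification `H ⊗ ℓ²(ℕ)` -/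
def STAB : Prop :=
  ∀ (H₀ : Type u) [NormedAddCommGroup H₀] [InnerProductSpace ℂ H₀] [CompleteSpace H₀]
    (M₀ N₀ : VonNeumannAlgebra H₀) (δ : ℝ), Close δ M₀ N₀ →
    ∃ (H : Type u) (_ : NormedAddCommGroup H) (_ : InnerProductSpace ℂ H) (_ : CompleteSpace H)
      (M N : VonNeumannAlgebra H), Close δ M N ∧ St M N ∧
      ∀ L : ℝ, 0 ≤ L → HasLift L M N → HasLift L M₀ N₀

/-! ### amplification -/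

/-- (AMP) the left amplification of a von Neumann algebra, its commutant, and stability of
`Good` -/
def AMP : Prop :=
  ∀ (H 𝓗 : Type u) [NormedAddCommGroup H] [InnerProductSpace ℂ H] [CompleteSpace H]
    [NormedAddCommGroup 𝓗] [InnerProductSpace ℂ 𝓗] [CompleteSpace 𝓗]
    (J₁ J₂ : Type) [Fintype J₁] [DecidableEq J₁] [Fintype J₂] [DecidableEq J₂]
    [Nonempty J₁] [Nonempty J₂] (a : FinAmp H 𝓗 (J₁ × J₂)),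
    ∃ F : VonNeumannAlgebra H → VonNeumannAlgebra 𝓗,
      (∀ P, (F P : Set (𝓗 →L[ℂ] 𝓗)) = a.setL P) ∧
      (∀ P, ((F P).commutant : Set (𝓗 →L[ℂ] 𝓗)) = a.setR P.commutant) ∧
      ∀ (M N : VonNeumannAlgebra H) (δ : ℝ), 0 ≤ δ → Good δ M N → Good δ (F M) (F N)

/-! ### letters, model, walk -/

/-- (LL) the letter lemma -/
def LL : Prop :=
  ∀ (H : Type u) [NormedAddCommGroup H] [InnerProductSpace ℂ H] [CompleteSpace H]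
    (M : VonNeumannAlgebra H) (A : Type) [Fintype A] (ξ : H) (μ : A → ℝ)
    (Y a b : A → (H →L[ℂ] H)) (η : A → H), ‖ξ‖ ≤ 1 → (∀ i, 0 ≤ μ i) → (∑ i, μ i = 1) →
    (∀ i, Y i ∈ M) → (∀ i, ‖Y i‖ ≤ 1) → (∀ i, a i ∈ M.commutant) → (∀ i, b i ∈ M.commutant) →
    (∀ h : H, ∑ i, ((μ i : ℂ) * ⟪η i, h⟫_ℂ) • Y i = 0) →
    ∀ κ : ℝ, 0 < κ → ∀ τ : ℝ, 0 < τ →
      ∃ (I : Type) (_ : Fintype I) (_ : DecidableEq I) (Kθ ε₁ : ℝ), 1 ≤ Kθ ∧ 0 ≤ ε₁ ∧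
        ε₁ * Kθ ≤ τ ∧ Nonempty (Letter M ξ μ Y a b η κ Kθ ε₁ I)

/-- (MODEL) the walk with fresh ancillas -/
def MODEL : Prop :=
  ∀ (H : Type u) [NormedAddCommGroup H] [InnerProductSpace ℂ H] [CompleteSpace H]
    (M N : VonNeumannAlgebra H) (δ R : ℝ), 0 ≤ δ → Good δ M N →
    ∀ (A : Type) [Fintype A] [DecidableEq A] (ρ : ARel M N R A) (κ K Kθ ε₁ : ℝ) (I : Type)
      [Fintype I] [DecidableEq I]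
      (_ : Letter M ρ.ξ ρ.μ ρ.Y ρ.a ρ.b ρ.η κ Kθ ε₁ I) (d : ℕ), 0 < d → 0 ≤ κ →
      (∀ i, ‖ρ.a i‖ ≤ K) → (∀ i, ‖ρ.b i‖ ≤ K) →
      ∃ (𝓗 : Type u) (_ : NormedAddCommGroup 𝓗) (_ : InnerProductSpace ℂ 𝓗)
        (_ : CompleteSpace 𝓗) (𝓜 𝓝 : VonNeumannAlgebra 𝓗)
        (w : Walk 𝓜 𝓝 δ R κ K Kθ ε₁ d (A × Fin 4)),
        Good δ 𝓜 𝓝 ∧ w.v = (1 / 2 : ℂ) * ρ.val

/-- (WALK) the analysis of the walk -/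
def WALK : Prop :=
  ∃ C : ℝ, 0 < C ∧
    ∀ (H : Type u) [NormedAddCommGroup H] [InnerProductSpace ℂ H] [CompleteSpace H]
      (M N : VonNeumannAlgebra H) (δ R κ K Kθ ε₁ L : ℝ) (d : ℕ) (𝒞 : Type) [Fintype 𝒞]
      [DecidableEq 𝒞] (w : Walk M N δ R κ K Kθ ε₁ d 𝒞), Good δ M N → Bd.{u} δ R L →
      0 ≤ δ → δ ≤ 1 → 1 ≤ R → 0 ≤ κ → 1 ≤ K → 1 ≤ Kθ → 0 ≤ ε₁ → K ^ 2 * Kθ * ε₁ ≤ 1 → 0 ≤ L → 0 < d →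
      ‖w.v‖ ≤ C * (δ + L ^ 2 + δ * L) +
        C * (1 + L) * (κ + K ^ 2 * Kθ * ε₁ + K * Real.sqrt d * ε₁ + K * Kθ / Real.sqrt d)

/-- the key inequality -/
def KEY : Prop :=
  ∃ C : ℝ, 0 < C ∧ ∀ δ R L : ℝ, 0 ≤ δ → δ ≤ 1 → 1 ≤ R → 0 ≤ L → Bd.{u} δ R L →
    Bd.{u} δ R (C * (δ + L ^ 2 + δ * L))

/-! ### sub-blocks of (WALK) -/

section WalkSub

variable {H : Type u} [NormedAddCommGroup H] [InnerProductSpace ℂ H] [CompleteSpace H]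
  {M N : VonNeumannAlgebra H} {δ R κ K Kθ ε₁ : ℝ} {d : ℕ} {𝒞 : Type} [Fintype 𝒞]
  [DecidableEq 𝒞]

/-- the word `X = T_0 ⋯ T_{d-1}` -/
def Walk.X (w : Walk M N δ R κ K Kθ ε₁ d 𝒞) (ω : Fin d → 𝒞) : H →L[ℂ] H :=
  pre (fun j => w.T j (ω j)) d

/-- chosen lifts of whole words: `l j ≈ L_j = T_0 ⋯ T_{j-1}`, `ρ j ≈ R_j = T_{j+1} ⋯ T_{d-1}`,
`σ j ≈ S_{j+1} ⋯ S_{d-1}`, `Xh ≈ X`. -/
structure Walk.Lifts (w : Walk M N δ R κ K Kθ ε₁ d 𝒞) where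
  l : Fin d → (Fin d → 𝒞) → (H →L[ℂ] H)
  ρ : Fin d → (Fin d → 𝒞) → (H →L[ℂ] H)
  σ : Fin d → (Fin d → 𝒞) → (H →L[ℂ] H)
  Xh : (Fin d → 𝒞) → (H →L[ℂ] H)
  l_mem : ∀ j ω, l j ω ∈ N
  l_norm : ∀ j ω, ‖l j ω‖ ≤ 1
  l_near : ∀ (j : Fin d) ω, ‖pre (fun i => w.T i (ω i)) j - l j ω‖ ≤ δ
  l_dep : ∀ (j : Fin d) ω ω', (∀ i, i < j → ω i = ω' i) → l j ω = l j ω'
  ρ_mem : ∀ j ω, ρ j ω ∈ N
  ρ_loc : ∀ j ω, ρ j ω ∈ w.Loc j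
  ρ_norm : ∀ j ω, ‖ρ j ω‖ ≤ 1
  ρ_near : ∀ (j : Fin d) ω, ‖suf (fun i => w.T i (ω i)) (j + 1) - ρ j ω‖ ≤ δ
  ρ_dep : ∀ (j : Fin d) ω ω', (∀ i, j < i → ω i = ω' i) → ρ j ω = ρ j ω'
  σ_mem : ∀ j ω, σ j ω ∈ N.commutant
  σ_loc : ∀ j ω, σ j ω ∈ w.Loc j
  σ_norm : ∀ j ω, ‖σ j ω‖ ≤ 1
  σ_near : ∀ (j : Fin d) ω, ‖suf (fun i => w.S i (ω i)) (j + 1) - σ j ω‖ ≤ δ
  σ_dep : ∀ (j : Fin d) ω ω', (∀ i, j < i → ω i = ω' i) → σ j ω = σ j ω'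
  Xh_mem : ∀ ω, Xh ω ∈ N
  Xh_norm : ∀ ω, ‖Xh ω‖ ≤ 1
  Xh_near : ∀ ω, ‖w.X ω - Xh ω‖ ≤ δ

/-- `q(y) = (1/d) ∑ Ψ_j (l_j^* y ρ_j^*)` -/
def Walk.q (w : Walk M N δ R κ K Kθ ε₁ d 𝒞) (ℓ : w.Lifts) (ω : Fin d → 𝒞)
    (y : H →L[ℂ] H) : ℂ :=
  (1 / (d : ℂ)) * ∑ j, ⟪w.β j (ω j),
    (star (ℓ.l j ω)) (y (star (ℓ.ρ j ω) (w.a (ω j) (w.k 1 j w.ζ))))⟫_ℂ

/-- `q₁(y) = (1/d) ∑ ⟨y a k (ρ_j^* - p σ_j) ζ, l_j β_j⟩` -/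
def Walk.q1 (w : Walk M N δ R κ K Kθ ε₁ d 𝒞) (ℓ : w.Lifts) (ω : Fin d → 𝒞)
    (y : H →L[ℂ] H) : ℂ :=
  (1 / (d : ℂ)) * ∑ j, ⟪ℓ.l j ω (w.β j (ω j)),
    y (w.a (ω j) (w.k 1 j (star (ℓ.ρ j ω) w.ζ - w.p (ℓ.σ j ω w.ζ))))⟫_ℂ

/-- `q₂(y) = (1/d) ∑ ⟨y a k p σ_j ζ, l_j β_j⟩` -/
def Walk.q2 (w : Walk M N δ R κ K Kθ ε₁ d 𝒞) (ℓ : w.Lifts) (ω : Fin d → 𝒞)
    (y : H →L[ℂ] H) : ℂ :=
  (1 / (d : ℂ)) * ∑ j, ⟪ℓ.l j ω (w.β j (ω j)),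
    y (w.a (ω j) (w.k 1 j (w.p (ℓ.σ j ω w.ζ))))⟫_ℂ

end WalkSub

/-- quantifier prefix shared by the sub-blocks of (WALK) -/
def WalkForall (P : ∀ {H : Type u} [NormedAddCommGroup H] [InnerProductSpace ℂ H]
    [CompleteSpace H] {M N : VonNeumannAlgebra H} {δ R κ K Kθ ε₁ : ℝ} {d : ℕ} {𝒞 : Type}
    [Fintype 𝒞] [DecidableEq 𝒞] (w : Walk M N δ R κ K Kθ ε₁ d 𝒞) (_ : w.Lifts) (_ : ℝ), Prop) :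
    Prop :=
  ∀ (H : Type u) [NormedAddCommGroup H] [InnerProductSpace ℂ H] [CompleteSpace H]
      (M N : VonNeumannAlgebra H) (δ R κ K Kθ ε₁ L : ℝ) (d : ℕ) (𝒞 : Type) [Fintype 𝒞]
      [DecidableEq 𝒞] (w : Walk M N δ R κ K Kθ ε₁ d 𝒞) (ℓ : w.Lifts), Good δ M N →
      Bd.{u} δ R L → 0 ≤ δ → δ ≤ 1 → 1 ≤ R → 0 ≤ κ → 1 ≤ K → 1 ≤ Kθ → 0 ≤ ε₁ →
      K ^ 2 * Kθ * ε₁ ≤ 1 → 0 ≤ L → 0 < d → P w ℓ L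

/-- (W0) lifts exist -/
def W0 : Prop :=
  ∀ (H : Type u) [NormedAddCommGroup H] [InnerProductSpace ℂ H] [CompleteSpace H]
      (M N : VonNeumannAlgebra H) (δ R κ K Kθ ε₁ : ℝ) (d : ℕ) (𝒞 : Type) [Fintype 𝒞]
      [DecidableEq 𝒞] (w : Walk M N δ R κ K Kθ ε₁ d 𝒞), 0 < d → Good δ M N → Nonempty w.Lifts

/-- (W1) value: `|E q(Xh) - v| ≤ 3δ + κ` -/
def W1 : Prop :=
  WalkForall.{u} fun {_ _ _ _ _ _ δ _ κ _ _ _ _ _ _ _} w ℓ _ =>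
    ‖∑ ω, ((wt w.ν ω : ℝ) : ℂ) * w.q ℓ ω (ℓ.Xh ω) - w.v‖ ≤ 3 * δ + κ

/-- (W2) splitting `q = q₁ + q₂` on `N`, and the `L¹` bound for `q₁` -/
def W2 : Prop :=
  WalkForall.{u} fun {_ _ _ _ _ N δ _ _ _ _ ε₁ d _ _ _} w ℓ _ =>
    (∀ ω, ∀ y ∈ N, w.q ℓ ω y = w.q1 ℓ ω y + w.q2 ℓ ω y) ∧
    ∃ c : (Fin _ → _) → ℝ, (∀ ω, 0 ≤ c ω) ∧ (∀ ω y, ‖w.q1 ℓ ω y‖ ≤ c ω * ‖y‖) ∧
      ∑ ω, wt w.ν ω * c ω ≤ 2 * (2 * δ + Real.sqrt d * ε₁)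

/-- (W3) the `L¹` bound for `q` -/
def W3 : Prop :=
  WalkForall.{u} fun {_ _ _ _ _ N δ _ κ K Kθ ε₁ d _ _ _} w ℓ L =>
    ∃ c : (Fin _ → _) → ℝ, (∀ ω, 0 ≤ c ω) ∧ (∀ ω, ∀ y ∈ N, ‖w.q ℓ ω y‖ ≤ c ω * ‖y‖) ∧
      ∑ ω, wt w.ν ω * c ω ≤
        L + 5 * δ + 10 * (K ^ 2 * Kθ * ε₁ + K * Real.sqrt d * ε₁ + K * Kθ / Real.sqrt d)

/-- (W4) the `L²` bound: representing vectors of `q₂` -/
def W4 : Prop :=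
  WalkForall.{u} fun {H _ _ _ _ N δ R _ _ Kθ _ d _ _ _} w ℓ _ =>
    ∃ (ζs : H) (ηq : (Fin _ → _) → H), ‖ζs‖ ≤ 1 ∧
      (∀ ω, ∀ y ∈ N, w.q2 ℓ ω y = ⟪ηq ω, y ζs⟫_ℂ) ∧
      ∑ ω, wt w.ν ω * ‖ηq ω‖ ≤ R * (3 * δ + 2 * Kθ / Real.sqrt d)

/-- (W5) `(X, q₂)` is a relation -/
def W5 : Prop :=
  WalkForall.{u} fun {_ _ _ _ _ N _ _ _ _ _ _ _ _ _ _} w ℓ _ =>
    ∀ n ∈ N, ∑ ω, (((wt w.ν ω : ℝ) : ℂ) * w.q2 ℓ ω n) • w.X ω = 0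

end Crest.Agent.R078.KK
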